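import Crest.Agent.X212.Eq82.Sub

/-!
# X212/Nv3/Red (helper3): `Eq82.RedS`, one more variable and one more equation
-/

set_option autoImplicit false
set_option linter.unusedSectionVars false
noncomputable section
open scoped Manifold ContDiff Topology InnerProductSpace
open MeasureTheory Set Function Filter

namespace Crest.Agent.X212.Nv3
open An Mod61 Eq82
open Line51 (Ln)

section vec
variable {r : ℕ}

/-- forget the last coordinate -/
def ini (z : EuclideanSpace ℂ (Fin (r + 1))) : EuclideanSpace ℂ (Fin r) :=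
  WithLp.toLp 2 fun i => z i.castSucc

/-- add the coordinate `0` -/
def snc (z : EuclideanSpace ℂ (Fin r)) : EuclideanSpace ℂ (Fin (r + 1)) :=
  WithLp.toLp 2 (Fin.snoc (α := fun _ => ℂ) z 0)

theorem ini_snc (z : EuclideanSpace ℂ (Fin r)) : ini (snc z) = z := by
  ext i; simp [ini, snc]

theorem snc_last (z : EuclideanSpace ℂ (Fin r)) : snc z (Fin.last r) = 0 := by simp [snc]

theorem ini_ext {z w : EuclideanSpace ℂ (Fin (r + 1))} (h : ini z = ini w)
    (h' : z (Fin.last r) = w (Fin.last r)) : z = w := by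
  ext i
  induction i using Fin.lastCases with
  | last => exact h'
  | cast i => exact congrArg (fun v : EuclideanSpace ℂ (Fin r) => v i) h

theorem nrm_ini (z : EuclideanSpace ℂ (Fin (r + 1))) :
    ‖z‖ ^ 2 = ‖ini z‖ ^ 2 + ‖z (Fin.last r)‖ ^ 2 := by
  rw [EuclideanSpace.norm_sq_eq, EuclideanSpace.norm_sq_eq, Fin.sum_univ_castSucc]
  rfl

theorem nrm_ini_eq {z : EuclideanSpace ℂ (Fin (r + 1))} (h : z (Fin.last r) = 0) : ‖ini z‖ = ‖z‖ := by
  have := nrm_ini z
  rw [h, norm_zero, zero_pow two_ne_zero, add_zero] at this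
  exact ((pow_left_inj₀ (norm_nonneg _) (norm_nonneg _) two_ne_zero).1 this).symm

theorem nrm_ini_le (z : EuclideanSpace ℂ (Fin (r + 1))) : ‖ini z‖ ≤ ‖z‖ :=
  (pow_le_pow_iff_left₀ (norm_nonneg _) (norm_nonneg _) two_ne_zero).1
    (nrm_ini z ▸ le_add_of_nonneg_right (sq_nonneg _))

theorem inner_ini {z : EuclideanSpace ℂ (Fin (r + 1))} (h : z (Fin.last r) = 0)
    (w : EuclideanSpace ℂ (Fin (r + 1))) : ⟪ini z, ini w⟫_ℂ = ⟪z, w⟫_ℂ := by
  rw [PiLp.inner_apply, PiLp.inner_apply, Fin.sum_univ_castSucc, h, inner_zero_left, add_zero]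
  rfl

end vec

variable {E : Type} [NormedAddCommGroup E] [NormedSpace ℝ E] [FiniteDimensional ℝ E]
  [MeasurableSpace E] [BorelSpace E]
  {HM : Type} [TopologicalSpace HM] {I : ModelWithCorners ℝ E HM}
  {M : Type} [TopologicalSpace M] [ChartedSpace HM M] [IsManifold I ∞ M]
  [MeasurableSpace M] {ι : Type} [Fintype ι] {lam : Type} [Fintype lam] {r n : ℕ}

/-- forget the last variable -/
def dn (c : Cfg M ι lam (r + 1)) : Cfg M ι lam r := ⟨c.m, c.W, c.Φ, ini c.z⟩

/-- add a variable -/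
def up (c : Cfg M ι lam r) : Cfg M ι lam (r + 1) := ⟨c.m, c.W, c.Φ, snc c.z⟩

theorem dn_up (c : Cfg M ι lam r) : dn (up c) = c := by rw [dn, up, ini_snc]

theorem up_dn {c : Cfg M ι lam (r + 1)} (h : c.z (Fin.last r) = 0) : up (dn c) = c := by
  rw [up, dn, ini_ext (ini_snc _) ((snc_last _).trans h.symm)]

/-- coefficients with one more variable -/
def coU : Co M lam r → Co M lam (r + 1)
  | .z i => .z i.castSucc
  | .s g L => .s g L

/-- terms with one more variable and one more equation -/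
def tmU : Tm M lam r n → Tm M lam (r + 1) (n + 1)
  | .lin u => .lin u
  | .anti d s u => .anti (coU d) s u
  | .ad g h ξ => .ad g h ξ
  | .adj d s g h u v l => .adj (coU d) s g h u v l
  | .adn f g h φ L => .adn f g h φ L
  | .cut i w g => .cut i.castSucc w g
  | .cz i w k => .cz i.castSucc w k.castSucc

section terms
variable (c : Cfg M ι lam (r + 1)) (B : Base M ι lam) (F : Fr I M ι)

theorem lt_dn : (dn c).lt F = c.lt F := funext fun t => by cases t <;> rfl

theorem la_dn : (dn c).la F = c.la F := funext fun t => by cases t <;> rfl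

theorem sw_dn : (dn c).sw F = c.sw F := funext fun w => by rw [Cfg.sw, lt_dn]; rfl

theorem sd_dn : (dn c).sd F = c.sd F := funext fun t => by
  cases t
  · rw [Cfg.sd, sw_dn]; rfl
  · rfl

theorem aw_dn : (dn c).aw F = c.aw F := funext fun w => by rw [Cfg.aw, la_dn, sd_dn]; rfl

theorem aws_dn : (dn c).aws F = c.aws F := funext fun w => by
  unfold Cfg.aws
  rw [aw_dn]
  rfl

theorem sg_dn : (dn c).sg F = c.sg F := funext fun w => by rw [Cfg.sg, sw_dn]; rfl

theorem co_dn (d : Co M lam r) : (dn c).co F d = c.co F (coU d) := by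
  cases d
  · rfl
  · rw [Cfg.co, sg_dn]; rfl

theorem qj_dn (d : Co M lam r) : (dn c).qj F d = c.qj F (coU d) := by
  unfold Cfg.qj
  rw [sw_dn, co_dn]
  rfl

theorem tD_dn (T : Tm M lam r n) : c.tD B F (tmU T) = (dn c).tD B F T := by
  cases T <;> first | rfl | (simp only [Cfg.tD, tmU, sw_dn, co_dn]; rfl)

theorem tC_dn (T : Tm M lam r n) : c.tC B F (tmU T) = (dn c).tC B F T := by
  cases T <;> first | rfl | (simp only [Cfg.tC, tmU, qj_dn, aw_dn, aws_dn, la_dn]; rfl)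

theorem tS_dn (T : Tm M lam r n) (i : Fin n) : c.tS F (tmU T) i.castSucc = (dn c).tS F T i := by
  cases T <;> first | rfl | (simp only [Cfg.tS, tmU, sg_dn, Pi.single_apply, Fin.castSucc_inj]; try rfl)

theorem tS_last (T : Tm M lam r n) : c.tS F (tmU T) (Fin.last n) = 0 := by
  cases T <;> first | rfl | simp [Cfg.tS, tmU, Fin.castSucc_ne_last, eq_comm]

/-- the same on generic terms -/
def wtU (T : Wt lam r n F) : Wt lam (r + 1) (n + 1) F :=
  ⟨tmU T.1, by
    obtain ⟨T, h1, h2⟩ := T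
    cases T with
    | anti d => cases d <;> exact ⟨h1, h2⟩
    | adj d => cases d <;> exact ⟨h1, h2⟩
    | _ => exact ⟨h1, h2⟩⟩

end terms

/-- `τ'` is `τ` with the equation `z last = 0` -/
structure Up (τ : Pt M ι lam r n) (τ' : Pt M ι lam (r + 1) (n + 1)) : Prop where
  D : ∀ c x, τ'.D c x = τ.D (dn c) x
  C : ∀ c x, τ'.C c x = τ.C (dn c) x
  S : ∀ c i, τ'.S c (Fin.castSucc i) = τ.S (dn c) i
  l : ∀ c, τ'.S c (Fin.last n) = c.z (Fin.last r)

theorem exists_up (B : Base M ι lam) (F F₀ : Fr I M ι) (q : Wt lam r n F₀ →₀ ℝ) :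
    ∃ q' : Wt lam (r + 1) (n + 1) F₀ →₀ ℝ, Up (wq B F q) (wq B F q') := by
  refine ⟨q.mapDomain (wtU F₀) + Finsupp.single ⟨.cz (Fin.last n) 1 (Fin.last r), trivial, trivial⟩ 1,
    fun c x => ?_, fun c x => ?_, fun c i => ?_, fun c => ?_⟩ <;> simp only [wq] <;>
  rw [Finsupp.sum_add_index' (by simp) (by simp [add_smul, add_mul]),
    Finsupp.sum_mapDomain_index (by simp) (by simp [add_smul, add_mul]),
    Finsupp.sum_single_index (by simp)]
  · simp only [wtU, tD_dn]
    exact (congrArg _ (smul_zero _)).trans (add_zero _)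
  · simp only [wtU, tC_dn]
    exact (congrArg _ (smul_zero _)).trans (add_zero _)
  · simp only [wtU, tS_dn]
    simp [Cfg.tS]
  · simp only [wtU, tS_last]
    simp [Cfg.tS]

variable {B : Base M ι lam} {G : Geo I M ι lam} {τ : Pt M ι lam r n}
  {τ' : Pt M ι lam (r + 1) (n + 1)} {c c' : Cfg M ι lam (r + 1)} {k : ℝ}

theorem Up.bd (h : Up τ τ') {e : ℝ} (hb : Bd B G τ e) : Bd B G τ' e := fun c h1 h2 σ h3 x => by
  rw [h.C]
  exact hb (dn c) ⟨h1.ok, h1.conn, h1.sm, h1.pos⟩ ((nrm_ini_le _).trans h2) σ h3 x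

theorem Up.eD (h : Up τ τ') (c : Cfg M ι lam (r + 1)) (x : M) : c.eD G τ' x = (dn c).eD G τ x := by
  rw [Cfg.eD, h.D]; rfl

theorem Up.eC (h : Up τ τ') (c : Cfg M ι lam (r + 1)) (x : M) :
    c.eC B G τ' x = (dn c).eC B G τ x := by
  rw [Cfg.eC, h.C]; rfl

theorem Up.sol (h : Up τ τ') (hr : 0 < r) :
    c.Sol B G τ' ↔ c.z (Fin.last r) = 0 ∧ (dn c).Sol B G τ := by
  refine ⟨fun s => ?_, fun ⟨z, s⟩ => ⟨⟨s.ok, s.conn, s.sm, s.pos, .inr ((nrm_ini_eq z).symm.trans
    (s.z.resolve_left hr.ne'))⟩, fun x => (h.eD c x).trans (s.D x), fun x => (h.eC c x).trans (s.C x),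
    fun i => ?_⟩⟩
  · have z := (h.l c).symm.trans (s.S _)
    exact ⟨z, ⟨s.ok, s.conn, s.sm, s.pos, .inr ((nrm_ini_eq z).trans (s.z.resolve_left r.succ_ne_zero))⟩,
      fun x => (h.eD c x).symm.trans (s.D x), fun x => (h.eC c x).symm.trans (s.C x),
      fun i => (h.S c i).symm.trans (s.S _)⟩
  · induction i using Fin.lastCases with
    | last => exact (h.l c).trans z
    | cast i => exact (h.S c i).trans (s.S i)

theorem iso_dn {F : Fr I M ι} (z : c.z (Fin.last r) = 0) (z' : c'.z (Fin.last r) = 0) :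
    Cfg.Iso B F c c' ↔ Cfg.Iso B F (dn c) (dn c') :=
  ⟨fun ⟨u, ζ, e⟩ => ⟨u, ζ, e.m, e.W, e.Φ, congrArg ini e.z⟩,
    fun ⟨u, ζ, e⟩ => ⟨u, ζ, e.m, e.W, e.Φ, ini_ext e.z (by simp [z, z'])⟩⟩

theorem Up.rig (h : Up τ τ') (z : c.z (Fin.last r) = 0) (hc : Rig B G τ (dn c)) : Rig B G τ' c := by
  intro α φ w h1 h2 h3 h4 h5 h6 h7 h8
  have w0 : w (Fin.last r) = 0 := by
    have k := h8 (Fin.last n)
    simp only [h.l, var, PiLp.add_apply, PiLp.smul_apply] at k
    simpa using ((((hasDerivAt_id (0 : ℝ)).smul_const (w (Fin.last r))).const_add _).unique k)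
  obtain ⟨ξ, θ, k1, k2, k3, k4, k5⟩ := hc α φ (ini w) h1 h2 h3 h4 ((congrArg _ (inner_ini z w)).trans h5)
    (fun x => (h6 x).congr_of_eventuallyEq (.of_forall fun s => (h.eD (var c α φ w s) x).symm))
    (fun x a => (h7 x a).congr_of_eventuallyEq (.of_forall fun s =>
      congrArg (fun v : Fm (ι × ι) c.m.A => v a) (h.eC (var c α φ w s) x).symm))
    fun i => (h8 i.castSucc).congr_of_eventuallyEq (.of_forall fun s => (h.S (var c α φ w s) i).symm)
  exact ⟨ξ, θ, k1, k2, k3, k4, ini_ext k5 (by simp [z, w0])⟩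

theorem Up.good (h : Up τ τ') (hr : 0 < r) (hg : Good B G τ k fun _ => True) :
    Good B G τ' k fun _ => True :=
  ⟨fun _ s e _ => h.rig ((h.sol hr).1 s).1 (hg.rig _ ((h.sol hr).1 s).2 e trivial),
    fun _ l hl s e => hg.low _ l hl ((h.sol hr).1 s).2 e⟩

theorem Up.cnt (h : Up τ τ') (hr : 0 < r) :
    cntU B G τ' k (fun _ => True) = cntU B G τ k fun _ => True :=
  Nat.card_congr (Quot.congr
    { toFun := fun x => ⟨dn x.1, ((h.sol hr).1 x.2.1).2, x.2.2⟩
      invFun := fun x => ⟨up x.1, (h.sol hr).2 ⟨snc_last _, (dn_up x.1).symm ▸ x.2.1⟩, x.2.2⟩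
      left_inv := fun x => Subtype.ext (up_dn ((h.sol hr).1 x.2.1).1)
      right_inv := fun _ => Subtype.ext (dn_up _) }
    fun x y => iso_dn ((h.sol hr).1 x.2.1).1 ((h.sol hr).1 y.2.1).1)

/-- **`RED`** -/
theorem redS [I.Boundaryless] [BorelSpace M] [SecondCountableTopology M] [T2Space M] [CompactSpace M]
    [DecidableEq ι] {κ : Type} [Fintype κ] [DecidableEq κ] (X : Bk I M ι) (L : Ln E M κ) :
    RedS X L := fun _ _ _ _ hr hp e he =>
  let ⟨q, h1, h2, h3⟩ := hp e he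
  let ⟨q', h⟩ := exists_up (X.B L) X.F X.F q
  ⟨q', h.bd h1, h.good hr h2, by rw [h.cnt hr]; exact h3⟩

end Crest.Agent.X212.Nv3
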